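import Vale.Agent.Lib.P329.Cert

/-!
Transition tables of the concrete automata used for groups with an abelian normal subgroup
of index three, and certificates that the automata cut at their events are counter-free.
The alphabet is `Fin 3`: in the block automata `U`, `YX`, `ZX` the letters `0, 1` advance the
phase by one and the letter `2` by two; in the loop-letter automaton the letter `0` does not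
change the phase.
-/

namespace Vale.Agent.Lib.P329

namespace Z3T

/-- Transition table of the block automaton `U` (one row per letter). -/
def gU : List (List ℕ) := [[1, 3, 3, 0, 5, 0], [2, 5, 3, 0, 5, 0], [3, 0, 0, 2, 0, 4]]
/-- Transition table of `U` cut at its events of kind 0. -/
def gU0 : List (List ℕ) := [[1, 3, 3, 6, 5, 6, 7, 7], [2, 5, 3, 6, 5, 6, 7, 7], [3, 6, 6, 2, 6, 4, 7, 7]]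
/-- The transformations induced by all words in the cut automaton. -/
def sU0 : List (List ℕ) := [[0, 1, 2, 3, 4, 5, 6, 7],
  [1, 3, 3, 6, 5, 6, 7, 7],
  [2, 5, 3, 6, 5, 6, 7, 7],
  [2, 7, 7, 6, 7, 6, 7, 7],
  [2, 7, 7, 7, 7, 7, 7, 7],
  [3, 6, 6, 2, 6, 4, 7, 7],
  [3, 6, 6, 7, 6, 7, 7, 7],
  [3, 7, 7, 7, 7, 7, 7, 7],
  [4, 7, 7, 7, 7, 7, 7, 7],
  [5, 6, 6, 7, 6, 7, 7, 7],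
  [5, 7, 7, 7, 7, 7, 7, 7],
  [6, 2, 2, 7, 4, 7, 7, 7],
  [6, 4, 2, 7, 4, 7, 7, 7],
  [6, 7, 7, 3, 7, 5, 7, 7],
  [6, 7, 7, 7, 7, 7, 7, 7],
  [7, 2, 2, 7, 4, 7, 7, 7],
  [7, 3, 3, 7, 5, 7, 7, 7],
  [7, 4, 2, 7, 4, 7, 7, 7],
  [7, 5, 3, 7, 5, 7, 7, 7],
  [7, 6, 6, 7, 6, 7, 7, 7],
  [7, 7, 7, 2, 7, 4, 7, 7],
  [7, 7, 7, 3, 7, 5, 7, 7],
  [7, 7, 7, 6, 7, 6, 7, 7],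
  [7, 7, 7, 7, 7, 7, 7, 7]]
/-- Transition table of `U` cut at its events of kind 1. -/
def gU1 : List (List ℕ) := [[1, 3, 3, 6, 5, 0, 7, 7], [2, 5, 3, 6, 5, 0, 7, 7], [3, 0, 6, 2, 0, 4, 7, 7]]
/-- The transformations induced by all words in the cut automaton. -/
def sU1 : List (List ℕ) := [[0, 1, 2, 3, 4, 5, 6, 7],
  [0, 2, 2, 7, 4, 3, 7, 7],
  [0, 2, 2, 7, 4, 7, 7, 7],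
  [0, 7, 7, 7, 1, 3, 7, 7],
  [0, 7, 7, 7, 1, 7, 7, 7],
  [0, 7, 7, 7, 2, 3, 7, 7],
  [0, 7, 7, 7, 2, 7, 7, 7],
  [0, 7, 7, 7, 7, 7, 7, 7],
  [1, 3, 3, 6, 5, 0, 7, 7],
  [1, 3, 3, 7, 5, 6, 7, 7],
  [1, 3, 3, 7, 5, 7, 7, 7],
  [1, 7, 7, 7, 3, 6, 7, 7],
  [1, 7, 7, 7, 3, 7, 7, 7],
  [1, 7, 7, 7, 7, 7, 7, 7],
  [2, 3, 3, 7, 5, 6, 7, 7],
  [2, 3, 3, 7, 5, 7, 7, 7],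
  [2, 3, 7, 6, 3, 0, 7, 7],
  [2, 3, 7, 7, 3, 0, 7, 7],
  [2, 3, 7, 7, 3, 6, 7, 7],
  [2, 5, 3, 6, 5, 0, 7, 7],
  [2, 7, 7, 7, 3, 0, 7, 7],
  [2, 7, 7, 7, 3, 6, 7, 7],
  [2, 7, 7, 7, 3, 7, 7, 7],
  [2, 7, 7, 7, 5, 6, 7, 7],
  [2, 7, 7, 7, 5, 7, 7, 7],
  [2, 7, 7, 7, 7, 0, 7, 7],
  [2, 7, 7, 7, 7, 6, 7, 7],
  [2, 7, 7, 7, 7, 7, 7, 7],
  [3, 0, 6, 2, 0, 4, 7, 7],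
  [3, 0, 6, 7, 0, 1, 7, 7],
  [3, 0, 6, 7, 0, 2, 7, 7],
  [3, 6, 6, 7, 0, 1, 7, 7],
  [3, 6, 6, 7, 0, 2, 7, 7],
  [3, 6, 6, 7, 0, 7, 7, 7],
  [3, 6, 7, 7, 6, 1, 7, 7],
  [3, 6, 7, 7, 6, 2, 7, 7],
  [3, 6, 7, 7, 6, 7, 7, 7],
  [3, 7, 7, 7, 0, 2, 7, 7],
  [3, 7, 7, 7, 0, 7, 7, 7],
  [3, 7, 7, 7, 6, 1, 7, 7],
  [3, 7, 7, 7, 6, 2, 7, 7],
  [3, 7, 7, 7, 6, 7, 7, 7],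
  [3, 7, 7, 7, 7, 1, 7, 7],
  [3, 7, 7, 7, 7, 2, 7, 7],
  [3, 7, 7, 7, 7, 7, 7, 7],
  [4, 7, 7, 7, 3, 6, 7, 7],
  [4, 7, 7, 7, 3, 7, 7, 7],
  [4, 7, 7, 7, 7, 7, 7, 7],
  [5, 6, 6, 7, 0, 2, 7, 7],
  [5, 6, 6, 7, 0, 7, 7, 7],
  [5, 7, 7, 7, 6, 7, 7, 7],
  [5, 7, 7, 7, 7, 7, 7, 7],
  [6, 1, 7, 3, 1, 5, 7, 7],
  [6, 1, 7, 7, 1, 3, 7, 7],
  [6, 2, 2, 7, 4, 7, 7, 7],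
  [6, 2, 7, 3, 2, 5, 7, 7],
  [6, 2, 7, 7, 2, 3, 7, 7],
  [6, 2, 7, 7, 2, 5, 7, 7],
  [6, 2, 7, 7, 2, 7, 7, 7],
  [6, 4, 2, 7, 4, 3, 7, 7],
  [6, 7, 7, 7, 1, 3, 7, 7],
  [6, 7, 7, 7, 1, 7, 7, 7],
  [6, 7, 7, 7, 2, 3, 7, 7],
  [6, 7, 7, 7, 2, 5, 7, 7],
  [6, 7, 7, 7, 2, 7, 7, 7],
  [6, 7, 7, 7, 4, 7, 7, 7],
  [6, 7, 7, 7, 7, 3, 7, 7],
  [6, 7, 7, 7, 7, 5, 7, 7],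
  [6, 7, 7, 7, 7, 7, 7, 7],
  [7, 0, 6, 7, 0, 2, 7, 7],
  [7, 0, 6, 7, 0, 7, 7, 7],
  [7, 0, 7, 2, 0, 4, 7, 7],
  [7, 0, 7, 7, 0, 1, 7, 7],
  [7, 0, 7, 7, 0, 2, 7, 7],
  [7, 0, 7, 7, 0, 7, 7, 7],
  [7, 1, 7, 3, 1, 5, 7, 7],
  [7, 1, 7, 7, 1, 3, 7, 7],
  [7, 1, 7, 7, 1, 7, 7, 7],
  [7, 2, 2, 7, 4, 7, 7, 7],
  [7, 2, 7, 3, 2, 5, 7, 7],
  [7, 2, 7, 7, 2, 3, 7, 7],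
  [7, 2, 7, 7, 2, 5, 7, 7],
  [7, 2, 7, 7, 2, 7, 7, 7],
  [7, 3, 3, 7, 5, 7, 7, 7],
  [7, 3, 7, 6, 3, 0, 7, 7],
  [7, 3, 7, 7, 3, 0, 7, 7],
  [7, 3, 7, 7, 3, 6, 7, 7],
  [7, 3, 7, 7, 3, 7, 7, 7],
  [7, 4, 2, 7, 4, 7, 7, 7],
  [7, 4, 7, 7, 4, 3, 7, 7],
  [7, 4, 7, 7, 4, 7, 7, 7],
  [7, 5, 3, 7, 5, 6, 7, 7],
  [7, 5, 3, 7, 5, 7, 7, 7],
  [7, 5, 7, 6, 5, 0, 7, 7],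
  [7, 5, 7, 7, 5, 6, 7, 7],
  [7, 5, 7, 7, 5, 7, 7, 7],
  [7, 6, 6, 7, 0, 7, 7, 7],
  [7, 6, 7, 2, 6, 4, 7, 7],
  [7, 6, 7, 7, 6, 1, 7, 7],
  [7, 6, 7, 7, 6, 2, 7, 7],
  [7, 6, 7, 7, 6, 4, 7, 7],
  [7, 6, 7, 7, 6, 7, 7, 7],
  [7, 7, 7, 2, 7, 4, 7, 7],
  [7, 7, 7, 3, 7, 5, 7, 7],
  [7, 7, 7, 6, 7, 0, 7, 7],
  [7, 7, 7, 7, 0, 2, 7, 7],
  [7, 7, 7, 7, 0, 7, 7, 7],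
  [7, 7, 7, 7, 1, 3, 7, 7],
  [7, 7, 7, 7, 1, 7, 7, 7],
  [7, 7, 7, 7, 2, 3, 7, 7],
  [7, 7, 7, 7, 2, 7, 7, 7],
  [7, 7, 7, 7, 3, 0, 7, 7],
  [7, 7, 7, 7, 3, 6, 7, 7],
  [7, 7, 7, 7, 3, 7, 7, 7],
  [7, 7, 7, 7, 4, 7, 7, 7],
  [7, 7, 7, 7, 5, 6, 7, 7],
  [7, 7, 7, 7, 5, 7, 7, 7],
  [7, 7, 7, 7, 6, 1, 7, 7],
  [7, 7, 7, 7, 6, 2, 7, 7],
  [7, 7, 7, 7, 6, 4, 7, 7],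
  [7, 7, 7, 7, 6, 7, 7, 7],
  [7, 7, 7, 7, 7, 0, 7, 7],
  [7, 7, 7, 7, 7, 1, 7, 7],
  [7, 7, 7, 7, 7, 2, 7, 7],
  [7, 7, 7, 7, 7, 3, 7, 7],
  [7, 7, 7, 7, 7, 4, 7, 7],
  [7, 7, 7, 7, 7, 5, 7, 7],
  [7, 7, 7, 7, 7, 6, 7, 7],
  [7, 7, 7, 7, 7, 7, 7, 7]]
/-- Transition table of the block automaton `YX` (one row per letter). -/
def gYX : List (List ℕ) := [[2, 5, 3, 0, 5, 0], [1, 3, 3, 0, 5, 0], [3, 0, 0, 2, 0, 4]]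
/-- Transition table of `YX` cut at its events of kind 0. -/
def gYX0 : List (List ℕ) := [[2, 5, 3, 6, 5, 6, 7, 7], [1, 3, 3, 6, 5, 6, 7, 7], [3, 6, 6, 2, 6, 4, 7, 7]]
/-- The transformations induced by all words in the cut automaton. -/
def sYX0 : List (List ℕ) := [[0, 1, 2, 3, 4, 5, 6, 7],
  [1, 3, 3, 6, 5, 6, 7, 7],
  [2, 5, 3, 6, 5, 6, 7, 7],
  [2, 7, 7, 6, 7, 6, 7, 7],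
  [2, 7, 7, 7, 7, 7, 7, 7],
  [3, 6, 6, 2, 6, 4, 7, 7],
  [3, 6, 6, 7, 6, 7, 7, 7],
  [3, 7, 7, 7, 7, 7, 7, 7],
  [4, 7, 7, 7, 7, 7, 7, 7],
  [5, 6, 6, 7, 6, 7, 7, 7],
  [5, 7, 7, 7, 7, 7, 7, 7],
  [6, 2, 2, 7, 4, 7, 7, 7],
  [6, 4, 2, 7, 4, 7, 7, 7],
  [6, 7, 7, 3, 7, 5, 7, 7],
  [6, 7, 7, 7, 7, 7, 7, 7],
  [7, 2, 2, 7, 4, 7, 7, 7],
  [7, 3, 3, 7, 5, 7, 7, 7],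
  [7, 4, 2, 7, 4, 7, 7, 7],
  [7, 5, 3, 7, 5, 7, 7, 7],
  [7, 6, 6, 7, 6, 7, 7, 7],
  [7, 7, 7, 2, 7, 4, 7, 7],
  [7, 7, 7, 3, 7, 5, 7, 7],
  [7, 7, 7, 6, 7, 6, 7, 7],
  [7, 7, 7, 7, 7, 7, 7, 7]]
/-- Transition table of `YX` cut at its events of kind 1. -/
def gYX1 : List (List ℕ) := [[2, 5, 3, 6, 5, 0, 7, 7], [1, 3, 3, 6, 5, 0, 7, 7], [3, 6, 6, 2, 0, 4, 7, 7]]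
/-- The transformations induced by all words in the cut automaton. -/
def sYX1 : List (List ℕ) := [[0, 1, 2, 3, 4, 5, 6, 7],
  [0, 7, 7, 7, 1, 3, 7, 7],
  [0, 7, 7, 7, 2, 3, 7, 7],
  [0, 7, 7, 7, 2, 7, 7, 7],
  [0, 7, 7, 7, 7, 7, 7, 7],
  [1, 3, 3, 6, 5, 0, 7, 7],
  [1, 7, 7, 7, 3, 6, 7, 7],
  [1, 7, 7, 7, 3, 7, 7, 7],
  [1, 7, 7, 7, 7, 7, 7, 7],
  [2, 3, 7, 7, 3, 6, 7, 7],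
  [2, 5, 3, 6, 5, 0, 7, 7],
  [2, 7, 7, 6, 3, 0, 7, 7],
  [2, 7, 7, 7, 3, 6, 7, 7],
  [2, 7, 7, 7, 3, 7, 7, 7],
  [2, 7, 7, 7, 5, 6, 7, 7],
  [2, 7, 7, 7, 7, 6, 7, 7],
  [2, 7, 7, 7, 7, 7, 7, 7],
  [3, 0, 6, 7, 0, 1, 7, 7],
  [3, 0, 6, 7, 0, 2, 7, 7],
  [3, 6, 6, 2, 0, 4, 7, 7],
  [3, 6, 6, 7, 0, 1, 7, 7],
  [3, 6, 7, 7, 6, 7, 7, 7],
  [3, 7, 7, 7, 0, 7, 7, 7],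
  [3, 7, 7, 7, 6, 1, 7, 7],
  [3, 7, 7, 7, 6, 2, 7, 7],
  [3, 7, 7, 7, 6, 7, 7, 7],
  [3, 7, 7, 7, 7, 7, 7, 7],
  [4, 7, 7, 7, 3, 6, 7, 7],
  [4, 7, 7, 7, 7, 7, 7, 7],
  [5, 6, 6, 7, 0, 2, 7, 7],
  [5, 7, 7, 7, 6, 7, 7, 7],
  [5, 7, 7, 7, 7, 7, 7, 7],
  [6, 1, 7, 7, 1, 3, 7, 7],
  [6, 2, 2, 7, 4, 3, 7, 7],
  [6, 2, 7, 7, 2, 3, 7, 7],
  [6, 2, 7, 7, 2, 5, 7, 7],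
  [6, 2, 7, 7, 2, 7, 7, 7],
  [6, 4, 2, 7, 4, 3, 7, 7],
  [6, 7, 7, 3, 1, 5, 7, 7],
  [6, 7, 7, 3, 2, 5, 7, 7],
  [6, 7, 7, 7, 1, 3, 7, 7],
  [6, 7, 7, 7, 1, 7, 7, 7],
  [6, 7, 7, 7, 2, 3, 7, 7],
  [6, 7, 7, 7, 2, 5, 7, 7],
  [6, 7, 7, 7, 2, 7, 7, 7],
  [6, 7, 7, 7, 4, 7, 7, 7],
  [6, 7, 7, 7, 7, 3, 7, 7],
  [6, 7, 7, 7, 7, 5, 7, 7],
  [6, 7, 7, 7, 7, 7, 7, 7],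
  [7, 0, 6, 7, 0, 2, 7, 7],
  [7, 0, 6, 7, 0, 7, 7, 7],
  [7, 0, 7, 7, 0, 7, 7, 7],
  [7, 1, 7, 7, 1, 3, 7, 7],
  [7, 1, 7, 7, 1, 7, 7, 7],
  [7, 2, 2, 7, 4, 7, 7, 7],
  [7, 2, 7, 7, 2, 3, 7, 7],
  [7, 2, 7, 7, 2, 7, 7, 7],
  [7, 3, 3, 7, 5, 6, 7, 7],
  [7, 3, 3, 7, 5, 7, 7, 7],
  [7, 3, 7, 7, 3, 0, 7, 7],
  [7, 3, 7, 7, 3, 6, 7, 7],
  [7, 3, 7, 7, 3, 7, 7, 7],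
  [7, 4, 2, 7, 4, 7, 7, 7],
  [7, 4, 7, 7, 4, 7, 7, 7],
  [7, 5, 3, 7, 5, 6, 7, 7],
  [7, 5, 3, 7, 5, 7, 7, 7],
  [7, 5, 7, 7, 5, 6, 7, 7],
  [7, 5, 7, 7, 5, 7, 7, 7],
  [7, 6, 6, 7, 0, 2, 7, 7],
  [7, 6, 6, 7, 0, 7, 7, 7],
  [7, 6, 7, 7, 6, 1, 7, 7],
  [7, 6, 7, 7, 6, 2, 7, 7],
  [7, 6, 7, 7, 6, 4, 7, 7],
  [7, 6, 7, 7, 6, 7, 7, 7],
  [7, 7, 7, 2, 6, 4, 7, 7],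
  [7, 7, 7, 2, 7, 4, 7, 7],
  [7, 7, 7, 3, 7, 5, 7, 7],
  [7, 7, 7, 6, 3, 0, 7, 7],
  [7, 7, 7, 6, 5, 0, 7, 7],
  [7, 7, 7, 6, 7, 0, 7, 7],
  [7, 7, 7, 7, 0, 1, 7, 7],
  [7, 7, 7, 7, 0, 2, 7, 7],
  [7, 7, 7, 7, 0, 7, 7, 7],
  [7, 7, 7, 7, 1, 3, 7, 7],
  [7, 7, 7, 7, 1, 7, 7, 7],
  [7, 7, 7, 7, 2, 3, 7, 7],
  [7, 7, 7, 7, 2, 5, 7, 7],
  [7, 7, 7, 7, 2, 7, 7, 7],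
  [7, 7, 7, 7, 3, 0, 7, 7],
  [7, 7, 7, 7, 3, 6, 7, 7],
  [7, 7, 7, 7, 3, 7, 7, 7],
  [7, 7, 7, 7, 4, 3, 7, 7],
  [7, 7, 7, 7, 4, 7, 7, 7],
  [7, 7, 7, 7, 5, 6, 7, 7],
  [7, 7, 7, 7, 5, 7, 7, 7],
  [7, 7, 7, 7, 6, 1, 7, 7],
  [7, 7, 7, 7, 6, 2, 7, 7],
  [7, 7, 7, 7, 6, 4, 7, 7],
  [7, 7, 7, 7, 6, 7, 7, 7],
  [7, 7, 7, 7, 7, 0, 7, 7],
  [7, 7, 7, 7, 7, 1, 7, 7],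
  [7, 7, 7, 7, 7, 2, 7, 7],
  [7, 7, 7, 7, 7, 3, 7, 7],
  [7, 7, 7, 7, 7, 4, 7, 7],
  [7, 7, 7, 7, 7, 5, 7, 7],
  [7, 7, 7, 7, 7, 6, 7, 7],
  [7, 7, 7, 7, 7, 7, 7, 7]]
/-- Transition table of the block automaton `ZX` (one row per letter). -/
def gZX : List (List ℕ) := [[2, 0, 3, 0, 5, 0], [2, 0, 3, 0, 5, 0], [1, 2, 0, 2, 0, 4]]
/-- Transition table of `ZX` cut at its events of kind 0. -/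
def gZX0 : List (List ℕ) := [[2, 6, 3, 6, 5, 6, 7, 7], [2, 6, 3, 6, 5, 6, 7, 7], [1, 2, 6, 2, 6, 4, 7, 7]]
/-- The transformations induced by all words in the cut automaton. -/
def sZX0 : List (List ℕ) := [[0, 1, 2, 3, 4, 5, 6, 7],
  [1, 2, 6, 2, 6, 4, 7, 7],
  [2, 6, 3, 6, 5, 6, 7, 7],
  [2, 6, 7, 6, 7, 6, 7, 7],
  [2, 7, 7, 7, 7, 7, 7, 7],
  [3, 7, 6, 7, 6, 7, 7, 7],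
  [3, 7, 7, 7, 7, 7, 7, 7],
  [6, 3, 7, 3, 7, 5, 7, 7],
  [6, 7, 2, 7, 4, 7, 7, 7],
  [6, 7, 7, 7, 7, 7, 7, 7],
  [7, 2, 7, 2, 7, 4, 7, 7],
  [7, 3, 7, 3, 7, 5, 7, 7],
  [7, 6, 7, 6, 7, 6, 7, 7],
  [7, 7, 2, 7, 4, 7, 7, 7],
  [7, 7, 3, 7, 5, 7, 7, 7],
  [7, 7, 6, 7, 6, 7, 7, 7],
  [7, 7, 7, 7, 7, 7, 7, 7]]
/-- Transition table of `ZX` cut at its events of kind 1. -/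
def gZX1 : List (List ℕ) := [[2, 0, 3, 6, 5, 0, 7, 7], [2, 6, 3, 6, 5, 0, 7, 7], [1, 2, 6, 2, 0, 4, 7, 7]]
/-- The transformations induced by all words in the cut automaton. -/
def sZX1 : List (List ℕ) := [[0, 1, 2, 3, 4, 5, 6, 7],
  [0, 3, 7, 3, 2, 5, 7, 7],
  [0, 3, 7, 3, 7, 5, 7, 7],
  [1, 2, 6, 2, 0, 4, 7, 7],
  [1, 2, 7, 2, 6, 4, 7, 7],
  [1, 2, 7, 2, 7, 4, 7, 7],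
  [2, 0, 3, 6, 5, 0, 7, 7],
  [2, 6, 3, 6, 5, 0, 7, 7],
  [2, 6, 7, 6, 1, 0, 7, 7],
  [2, 6, 7, 6, 3, 0, 7, 7],
  [2, 6, 7, 6, 7, 0, 7, 7],
  [2, 6, 7, 7, 1, 6, 7, 7],
  [2, 7, 7, 7, 1, 6, 7, 7],
  [2, 7, 7, 7, 1, 7, 7, 7],
  [2, 7, 7, 7, 7, 6, 7, 7],
  [2, 7, 7, 7, 7, 7, 7, 7],
  [3, 2, 6, 7, 0, 2, 7, 7],
  [3, 7, 6, 7, 0, 2, 7, 7],
  [3, 7, 7, 7, 0, 2, 7, 7],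
  [3, 7, 7, 7, 0, 7, 7, 7],
  [3, 7, 7, 7, 6, 2, 7, 7],
  [3, 7, 7, 7, 6, 7, 7, 7],
  [3, 7, 7, 7, 7, 2, 7, 7],
  [3, 7, 7, 7, 7, 7, 7, 7],
  [6, 1, 2, 7, 4, 1, 7, 7],
  [6, 3, 7, 3, 2, 5, 7, 7],
  [6, 3, 7, 3, 7, 5, 7, 7],
  [6, 3, 7, 7, 2, 3, 7, 7],
  [6, 7, 2, 7, 4, 1, 7, 7],
  [6, 7, 7, 7, 2, 1, 7, 7],
  [6, 7, 7, 7, 2, 3, 7, 7],
  [6, 7, 7, 7, 2, 7, 7, 7],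
  [6, 7, 7, 7, 7, 1, 7, 7],
  [6, 7, 7, 7, 7, 3, 7, 7],
  [6, 7, 7, 7, 7, 7, 7, 7],
  [7, 0, 3, 7, 5, 0, 7, 7],
  [7, 1, 2, 7, 4, 1, 7, 7],
  [7, 2, 6, 7, 0, 2, 7, 7],
  [7, 2, 7, 2, 6, 4, 7, 7],
  [7, 2, 7, 2, 7, 4, 7, 7],
  [7, 2, 7, 7, 6, 2, 7, 7],
  [7, 2, 7, 7, 7, 2, 7, 7],
  [7, 3, 7, 3, 7, 5, 7, 7],
  [7, 3, 7, 7, 2, 3, 7, 7],
  [7, 3, 7, 7, 7, 3, 7, 7],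
  [7, 6, 3, 7, 5, 6, 7, 7],
  [7, 6, 7, 6, 3, 0, 7, 7],
  [7, 6, 7, 6, 7, 0, 7, 7],
  [7, 6, 7, 7, 1, 6, 7, 7],
  [7, 6, 7, 7, 3, 6, 7, 7],
  [7, 6, 7, 7, 7, 6, 7, 7],
  [7, 7, 2, 7, 4, 1, 7, 7],
  [7, 7, 2, 7, 4, 7, 7, 7],
  [7, 7, 3, 7, 5, 0, 7, 7],
  [7, 7, 3, 7, 5, 6, 7, 7],
  [7, 7, 3, 7, 5, 7, 7, 7],
  [7, 7, 6, 7, 0, 2, 7, 7],
  [7, 7, 6, 7, 0, 7, 7, 7],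
  [7, 7, 7, 7, 0, 7, 7, 7],
  [7, 7, 7, 7, 1, 6, 7, 7],
  [7, 7, 7, 7, 1, 7, 7, 7],
  [7, 7, 7, 7, 2, 1, 7, 7],
  [7, 7, 7, 7, 2, 3, 7, 7],
  [7, 7, 7, 7, 2, 7, 7, 7],
  [7, 7, 7, 7, 3, 0, 7, 7],
  [7, 7, 7, 7, 3, 6, 7, 7],
  [7, 7, 7, 7, 3, 7, 7, 7],
  [7, 7, 7, 7, 6, 2, 7, 7],
  [7, 7, 7, 7, 6, 7, 7, 7],
  [7, 7, 7, 7, 7, 0, 7, 7],
  [7, 7, 7, 7, 7, 1, 7, 7],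
  [7, 7, 7, 7, 7, 2, 7, 7],
  [7, 7, 7, 7, 7, 3, 7, 7],
  [7, 7, 7, 7, 7, 6, 7, 7],
  [7, 7, 7, 7, 7, 7, 7, 7]]
/-- Transition table of the loop-letter automaton cut at its events of kind A. -/
def gEA : List (List ℕ) := [[0, 1, 2, 4, 4], [1, 2, 3, 4, 4], [2, 3, 1, 4, 4]]
/-- The transformations induced by all words in the cut automaton. -/
def sEA : List (List ℕ) := [[0, 1, 2, 3, 4],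
  [0, 1, 2, 4, 4],
  [1, 2, 3, 4, 4],
  [1, 2, 4, 4, 4],
  [1, 4, 3, 4, 4],
  [1, 4, 4, 4, 4],
  [2, 3, 1, 4, 4],
  [2, 3, 4, 4, 4],
  [2, 4, 1, 4, 4],
  [2, 4, 4, 4, 4],
  [3, 1, 4, 4, 4],
  [3, 4, 2, 4, 4],
  [3, 4, 4, 4, 4],
  [4, 1, 4, 4, 4],
  [4, 2, 4, 4, 4],
  [4, 3, 4, 4, 4],
  [4, 4, 1, 4, 4],
  [4, 4, 2, 4, 4],
  [4, 4, 3, 4, 4],
  [4, 4, 4, 4, 4]]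
/-- Transition table of the loop-letter automaton cut at its events of kind K. -/
def gEK : List (List ℕ) := [[3, 1, 2, 4, 4], [1, 2, 3, 4, 4], [2, 3, 1, 4, 4]]
/-- The transformations induced by all words in the cut automaton. -/
def sEK : List (List ℕ) := [[0, 1, 2, 3, 4],
  [1, 2, 3, 4, 4],
  [1, 2, 4, 4, 4],
  [1, 4, 3, 4, 4],
  [1, 4, 4, 4, 4],
  [2, 3, 1, 4, 4],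
  [2, 3, 4, 4, 4],
  [2, 4, 1, 4, 4],
  [2, 4, 4, 4, 4],
  [3, 1, 2, 4, 4],
  [3, 1, 4, 4, 4],
  [3, 4, 2, 4, 4],
  [3, 4, 4, 4, 4],
  [4, 1, 2, 4, 4],
  [4, 1, 4, 4, 4],
  [4, 2, 3, 4, 4],
  [4, 2, 4, 4, 4],
  [4, 3, 1, 4, 4],
  [4, 3, 4, 4, 4],
  [4, 4, 1, 4, 4],
  [4, 4, 2, 4, 4],
  [4, 4, 3, 4, 4],
  [4, 4, 4, 4, 4]]

theorem chkU0 : Cert.Check 8 gU0 sU0 := by decide +kernel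

theorem chkU1 : Cert.Check 8 gU1 sU1 := by decide +kernel

theorem chkYX0 : Cert.Check 8 gYX0 sYX0 := by decide +kernel

theorem chkYX1 : Cert.Check 8 gYX1 sYX1 := by decide +kernel

theorem chkZX0 : Cert.Check 8 gZX0 sZX0 := by decide +kernel

theorem chkZX1 : Cert.Check 8 gZX1 sZX1 := by decide +kernel

theorem chkEA : Cert.Check 5 gEA sEA := by decide +kernel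

theorem chkEK : Cert.Check 5 gEK sEK := by decide +kernel

end Z3T

end Vale.Agent.Lib.P329
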